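import Vale.Agent.P181.BL.Defs
import Vale.Agent.P181.TL.H248.LiftC

set_option autoImplicit false

/-!
# P181, BL (B3): one lift
-/

open MvPolynomial

namespace Vale.Agent.P181.BL.H650

open Vale.Agent.P181.T4 (HW rowOp rowOp_apply rowOp_leibniz rowOp_C mem_HW)
open Vale.Agent.P181.SZ.R1b (coeff_cmp cmp_rowOp cdeg)
open Vale.Agent.P181.DG6.H887 (lsub lsub_X lsub_mem_HW)
open Vale.Agent.P181.TL (KK)
open Vale.Agent.P181.TL.H248 (AG Pg coeff_Pg collapse)
open Vale.Agent.P181.BL

section hc

variable {n : ℕ} {σ : Type} [Fintype σ]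

/-- Highest weight polynomials with given column degrees. -/
def HC (f : MvPolynomial (Fin n × σ) ℂ) (mu : Fin n → ℕ) (d : σ → ℕ) : Prop :=
  f ∈ HW n σ mu ∧ ∀ v, coeff v f ≠ 0 → ∀ x, ∑ i, v (i, x) = d x

lemma HC.one : HC (1 : MvPolynomial (Fin n × σ) ℂ) (fun _ => 0) (fun _ => 0) := by
  classical
  have h1 : ∀ v : Fin n × σ →₀ ℕ, coeff v (1 : MvPolynomial (Fin n × σ) ℂ) ≠ 0 → v = 0 := by
    intro v hv
    rw [coeff_one] at hv
    by_contra h
    rw [if_neg (Ne.symm h)] at hv
    exact hv rfl
  refine ⟨⟨fun v hv i => ?_, fun s i _ => ?_⟩, fun v hv x => ?_⟩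
  · rw [h1 v hv]
    simp
  · rw [← C_1]
    exact rowOp_C _ _ _
  · rw [h1 v hv]
    simp

lemma HC.mul {f g : MvPolynomial (Fin n × σ) ℂ} {mu nu : Fin n → ℕ} {d e : σ → ℕ}
    (hf : HC f mu d) (hg : HC g nu e) : HC (f * g) (fun i => mu i + nu i) (fun x => d x + e x) := by
  classical
  have h1 : ∀ v, coeff v (f * g) ≠ 0 → ∃ v1 v2, v1 + v2 = v ∧ coeff v1 f ≠ 0 ∧ coeff v2 g ≠ 0 := by
    intro v hv
    rw [coeff_mul] at hv
    obtain ⟨p, hp, hne⟩ := Finset.exists_ne_zero_of_sum_ne_zero hv
    exact ⟨p.1, p.2, Finset.HasAntidiagonal.mem_antidiagonal.1 hp, left_ne_zero_of_mul hne,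
      right_ne_zero_of_mul hne⟩
  refine ⟨⟨fun v hv i => ?_, fun s i hsi => ?_⟩, fun v hv x => ?_⟩
  · obtain ⟨v1, v2, rfl, h2, h3⟩ := h1 v hv
    change ∑ j, (v1 (i, j) + v2 (i, j)) = mu i + nu i
    rw [← hf.1.1 v1 h2 i, ← hg.1.1 v2 h3 i, ← Finset.sum_add_distrib]
  · rw [rowOp_leibniz, hf.1.2 s i hsi, hg.1.2 s i hsi, zero_mul, mul_zero, add_zero]
  · obtain ⟨v1, v2, rfl, h2, h3⟩ := h1 v hv
    change ∑ i, (v1 (i, x) + v2 (i, x)) = d x + e x
    rw [← hf.2 v1 h2 x, ← hg.2 v2 h3 x, ← Finset.sum_add_distrib]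

lemma HC.congr {f : MvPolynomial (Fin n × σ) ℂ} {mu nu : Fin n → ℕ} {d e : σ → ℕ}
    (hf : HC f mu d) (h1 : ∀ i, mu i = nu i) (h2 : ∀ x, d x = e x) : HC f nu e := by
  obtain rfl : mu = nu := funext h1
  obtain rfl : d = e := funext h2
  exact hf

lemma HC.pow {f : MvPolynomial (Fin n × σ) ℂ} {mu : Fin n → ℕ} {d : σ → ℕ}
    (hf : HC f mu d) (m : ℕ) : HC (f ^ m) (fun i => m * mu i) (fun x => m * d x) := by
  induction m with
  | zero =>
    rw [pow_zero]
    exact HC.one.congr (fun i => (Nat.zero_mul _).symm) (fun x => (Nat.zero_mul _).symm)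
  | succ m ih =>
    rw [pow_succ]
    exact (ih.mul hf).congr (fun i => (Nat.succ_mul _ _).symm) (fun x => (Nat.succ_mul _ _).symm)

lemma HC.prod {τ : Type} (s : Finset τ) {f : τ → MvPolynomial (Fin n × σ) ℂ}
    {mu : τ → Fin n → ℕ} {d : τ → σ → ℕ} (hf : ∀ t ∈ s, HC (f t) (mu t) (d t)) :
    HC (∏ t ∈ s, f t) (fun i => ∑ t ∈ s, mu t i) (fun x => ∑ t ∈ s, d t x) := by
  classical
  induction s using Finset.induction_on with
  | empty =>
    rw [Finset.prod_empty]
    exact HC.one.congr (fun i => rfl) (fun x => rfl)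
  | insert t s ht ih =>
    rw [Finset.prod_insert ht]
    refine ((hf t (Finset.mem_insert_self t s)).mul
      (ih fun t' h' => hf t' (Finset.mem_insert_of_mem h'))).congr (fun i => ?_) (fun x => ?_)
    · rw [Finset.sum_insert ht]
    · rw [Finset.sum_insert ht]

end hc

section fr

variable {N r : ℕ} {ι η : Type}

lemma fr_inl (g : η → Fin r) (i : Fin N) (j : ι) :
    fr N g (X (i, Sum.inl j) : MvPolynomial (Fin N × (ι ⊕ η)) ℂ) = X (i, j) := by
  rw [fr, aeval_X]
  rfl

lemma fr_inr (g : η → Fin r) (i : Fin N) (h : η) :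
    fr N g (X (i, Sum.inr h) : MvPolynomial (Fin N × (ι ⊕ η)) ℂ) =
      if (i : ℕ) = (g h : ℕ) then 1 else 0 := by
  rw [fr, aeval_X]
  rfl

/-- The frame specialization factors through the collapse of the heads. -/
lemma fr_collapse (g : η → Fin r) (G : MvPolynomial (Fin N × (ι ⊕ η)) ℂ) :
    fr N g G = fr N (id : Fin r → Fin r) (rename (fun p : Fin N × (ι ⊕ η) =>
      (p.1, Sum.map (id : ι → ι) g p.2)) G) := by
  have h2 : fr N g = (fr N (id : Fin r → Fin r)).comp (rename (R := ℂ)
      (fun p : Fin N × (ι ⊕ η) => (p.1, Sum.map (id : ι → ι) g p.2))) := by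
    apply MvPolynomial.algHom_ext
    rintro ⟨i, x⟩
    rw [AlgHom.comp_apply, rename_X]
    rcases x with j | h
    · rw [fr_inl]
      exact (fr_inl (id : Fin r → Fin r) i j).symm
    · rw [fr_inr]
      exact (fr_inr (ι := ι) (id : Fin r → Fin r) i (g h)).symm
  exact DFunLike.congr_fun h2 G

/-- The top minor of the columns `e`. -/
noncomputable def mi {σ : Type} (m : ℕ) (hm : m ≤ N) (e : Fin m → σ) :
    MvPolynomial (Fin N × σ) ℂ :=
  Matrix.det (Matrix.of fun i l : Fin m =>
    (X (Fin.castLE hm i, e l) : MvPolynomial (Fin N × σ) ℂ))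

lemma mi_HC (hM : MinR) {σ : Type} [Fintype σ] [DecidableEq σ] (m : ℕ) (hm : m ≤ N)
    (e : Fin m → σ) : HC (mi m hm e) (fun i => if (i : ℕ) < m then 1 else 0)
      (fun x => (Finset.univ.filter fun l => e l = x).card) := hM N m σ hm e

/-- The columns of the label minor. -/
def ey [DecidableEq (Fin r)] (l : Fin r) (j : ι) : Fin r → ι ⊕ Fin r :=
  fun l' => if l' = l then Sum.inl j else Sum.inr l'

lemma fr_ey (hr : r ≤ N) (l : Fin r) (j : ι) :
    fr N (id : Fin r → Fin r) (mi (N := N) r hr (ey l j)) = X (Fin.castLE hr l, j) := by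
  classical
  have h1 : fr N (id : Fin r → Fin r) (mi (N := N) r hr (ey l j)) =
      Matrix.cramer (1 : Matrix (Fin r) (Fin r) (MvPolynomial (Fin N × ι) ℂ))
        (fun i => X (Fin.castLE hr i, j)) l := by
    rw [Matrix.cramer_apply, mi, AlgHom.map_det]
    congr 1
    ext1 i l'
    rw [AlgHom.mapMatrix_apply, Matrix.map_apply, Matrix.updateCol_apply, Matrix.of_apply]
    by_cases h : l' = l
    · rw [if_pos h, ey, if_pos h, fr_inl]
    · rw [if_neg h, ey, if_neg h, fr_inr, Matrix.one_apply]
      congr 1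
      simp only [Fin.val_castLE, id, Fin.ext_iff]
  rw [h1, Matrix.cramer_one]
  rfl

/-- The columns of the leading minor. -/
def ed (m : Fin r) : Fin ((m : ℕ) + 1) → ι ⊕ Fin r := fun l => Sum.inr ⟨l, by omega⟩

lemma fr_ed (hr : r ≤ N) (m : Fin r) :
    fr N (id : Fin r → Fin r) (mi (N := N) ((m : ℕ) + 1) (by omega) (ed (ι := ι) m)) = 1 := by
  classical
  rw [mi, AlgHom.map_det]
  have h : (fr N (id : Fin r → Fin r)).mapMatrix (Matrix.of fun i l : Fin ((m : ℕ) + 1) =>
      (X (Fin.castLE (by omega : (m : ℕ) + 1 ≤ N) i, ed (ι := ι) m l) :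
        MvPolynomial (Fin N × (ι ⊕ Fin r)) ℂ)) = 1 := by
    ext1 i l
    rw [AlgHom.mapMatrix_apply, Matrix.map_apply, Matrix.of_apply, ed, fr_inr, Matrix.one_apply]
    congr 1
    simp only [Fin.val_castLE, id, Fin.ext_iff]
  rw [h, Matrix.det_one]

end fr

section one

variable {k r : ℕ} {ι : Type} [Fintype ι]

/-- The exponents of the leading minors. -/
def nn0 (al : ℕ → ℕ) (t E r : ℕ) (m : Fin r) : ℕ :=
  if (m : ℕ) + 1 < r then al m - al (m + 1) else al (r - 1) - (t + E)

lemma sum_nn0 {al : ℕ → ℕ} {t E r : ℕ} (h1 : ∀ l, l + 1 < r → al (l + 1) ≤ al l)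
    (h2 : t + E ≤ al (r - 1)) (l : ℕ) (hl : l < r) :
    t + E + ∑ m : Fin r, (if l ≤ (m : ℕ) then nn0 al t E r m else 0) = al l := by
  have key : ∀ d l, l + d + 1 = r →
      t + E + ∑ m : Fin r, (if l ≤ (m : ℕ) then nn0 al t E r m else 0) = al l := by
    intro d
    induction d with
    | zero =>
      intro l hl
      have hlr : l < r := by omega
      rw [Finset.sum_eq_single (⟨l, hlr⟩ : Fin r)]
      · rw [if_pos le_rfl, nn0, if_neg (by simp only; omega)]
        have : r - 1 = l := by omega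
        rw [this] at h2 ⊢
        omega
      · intro m _ hm
        rw [if_neg]
        intro h
        apply hm
        apply Fin.ext
        have := m.2
        simp only
        omega
      · intro h
        exact absurd (Finset.mem_univ _) h
    | succ d ih =>
      intro l hl
      have hlr : l < r := by omega
      have h3 := ih (l + 1) (by omega)
      have h4 : ∑ m : Fin r, (if l ≤ (m : ℕ) then nn0 al t E r m else 0) =
          nn0 al t E r ⟨l, hlr⟩ +
            ∑ m : Fin r, (if l + 1 ≤ (m : ℕ) then nn0 al t E r m else 0) := by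
        have h5 : ∀ m : Fin r, (if l ≤ (m : ℕ) then nn0 al t E r m else 0) =
            (if m = ⟨l, hlr⟩ then nn0 al t E r m else 0) +
              (if l + 1 ≤ (m : ℕ) then nn0 al t E r m else 0) := by
          intro m
          by_cases h : m = ⟨l, hlr⟩
          · subst h
            simp
          · rw [if_neg h, zero_add]
            congr 1
            have : (m : ℕ) ≠ l := fun h' => h (Fin.ext h')
            simp only [eq_iff_iff]
            omega
        rw [Finset.sum_congr rfl fun m _ => h5 m, Finset.sum_add_distrib, Finset.sum_ite_eq',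
          if_pos (Finset.mem_univ _)]
      have h6 : nn0 al t E r ⟨l, hlr⟩ = al l - al (l + 1) := by
        rw [nn0, if_pos (by simp only; omega)]
      have h7 := h1 l (by omega)
      rw [h4, h6]
      omega
  exact key (r - 1 - l) l (by omega)

/-- The multiplier. -/
noncomputable def mul0 (N : ℕ) (hr : r ≤ N) (v : Fin r × ι → ℕ) (n : Fin r → ℕ) :
    MvPolynomial (Fin N × (ι ⊕ Fin r)) ℂ :=
  (∏ q : Fin r × ι, mi r hr (ey q.1 q.2) ^ v q) *
    ∏ m : Fin r, mi ((m : ℕ) + 1) (by omega) (ed m) ^ n m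

lemma mul0_HC [DecidableEq ι] (hM : MinR) (N : ℕ) (hr : r ≤ N) (v : Fin r × ι → ℕ)
    (n : Fin r → ℕ) : HC (mul0 N hr v n)
      (fun i => (if (i : ℕ) < r then ∑ q, v q else 0) +
        ∑ m : Fin r, (if (i : ℕ) ≤ (m : ℕ) then n m else 0))
      (Sum.elim (fun j => ∑ l, v (l, j)) (fun l => (∑ q : Fin r × ι, if q.1 = l then 0 else v q) +
        ∑ m : Fin r, (if (l : ℕ) ≤ (m : ℕ) then n m else 0))) := by
  classical
  refine ((HC.prod Finset.univ fun q _ => (mi_HC hM r hr (ey q.1 q.2)).pow (v q)).mul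
    (HC.prod Finset.univ fun (m : Fin r) _ =>
      (mi_HC hM ((m : ℕ) + 1) (by omega) (ed m)).pow (n m))).congr
    (fun i => ?_) (fun x => ?_)
  · congr 1
    · split_ifs with h
      · simp
      · simp
    · refine Finset.sum_congr rfl fun m _ => ?_
      by_cases h : (i : ℕ) ≤ (m : ℕ)
      · rw [if_pos h, if_pos (by omega), mul_one]
      · rw [if_neg h, if_neg (by omega), mul_zero]
  · rcases x with j | l
    · simp only [Sum.elim_inl]
      have h1 : ∀ q : Fin r × ι, (Finset.univ.filter fun l' =>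
          ey q.1 q.2 l' = (Sum.inl j : ι ⊕ Fin r)).card = if q.2 = j then 1 else 0 := by
        intro q
        by_cases h : q.2 = j
        · rw [if_pos h, Finset.card_eq_one]
          refine ⟨q.1, ?_⟩
          ext l'
          rw [Finset.mem_filter, Finset.mem_singleton]
          by_cases h' : l' = q.1
          · simp [ey, h, h']
          · simp [ey, h']
        · rw [if_neg h, Finset.card_eq_zero, Finset.filter_eq_empty_iff]
          intro l' _
          simp only [ey]
          split_ifs with h'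
          · simpa using h
          · simp
      have h2 : ∀ m : Fin r, (Finset.univ.filter fun l' =>
          ed m l' = (Sum.inl j : ι ⊕ Fin r)).card = 0 := by
        intro m
        rw [Finset.card_eq_zero, Finset.filter_eq_empty_iff]
        intro l' _
        simp [ed]
      have h3 : ∑ m : Fin r, n m * (Finset.univ.filter fun l' =>
          ed m l' = (Sum.inl j : ι ⊕ Fin r)).card = 0 :=
        Finset.sum_eq_zero fun m _ => by rw [h2 m, mul_zero]
      rw [h3, add_zero, Finset.sum_congr rfl fun (q : Fin r × ι) _ => by rw [h1 q],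
        Fintype.sum_prod_type]
      refine Finset.sum_congr rfl fun l _ => ?_
      simp
    · simp only [Sum.elim_inr]
      have h1 : ∀ q : Fin r × ι, (Finset.univ.filter fun l' =>
          ey q.1 q.2 l' = (Sum.inr l : ι ⊕ Fin r)).card = if q.1 = l then 0 else 1 := by
        intro q
        by_cases h : q.1 = l
        · rw [if_pos h, Finset.card_eq_zero, Finset.filter_eq_empty_iff]
          intro l' _
          simp only [ey]
          split_ifs with h'
          · simp
          · simp only [Sum.inr.injEq]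
            intro h''
            exact h' (h''.trans h.symm)
        · rw [if_neg h, Finset.card_eq_one]
          refine ⟨l, ?_⟩
          ext l'
          rw [Finset.mem_filter, Finset.mem_singleton]
          by_cases h' : l' = q.1
          · simp only [ey, if_pos h', reduceCtorEq, and_false, false_iff]
            intro h''
            exact h (h'.symm.trans h'')
          · simp [ey, h']
      have h2 : ∀ m : Fin r, (Finset.univ.filter fun l' =>
          ed m l' = (Sum.inr l : ι ⊕ Fin r)).card = if (l : ℕ) ≤ (m : ℕ) then 1 else 0 := by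
        intro m
        by_cases h : (l : ℕ) ≤ (m : ℕ)
        · rw [if_pos h, Finset.card_eq_one]
          refine ⟨⟨l, by omega⟩, ?_⟩
          ext l'
          simp only [Finset.mem_filter, Finset.mem_univ, true_and, Finset.mem_singleton, ed,
            Sum.inr.injEq, Fin.ext_iff]
        · rw [if_neg h, Finset.card_eq_zero, Finset.filter_eq_empty_iff]
          intro l' _
          simp only [ed, Sum.inr.injEq, Fin.ext_iff]
          have := l'.2
          omega
      congr 1
      · refine Finset.sum_congr rfl fun q _ => ?_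
        rw [h1 q]
        split_ifs <;> simp
      · refine Finset.sum_congr rfl fun m _ => ?_
        rw [h2 m]
        split_ifs <;> simp

lemma fr_mul0 (N : ℕ) (hr : r ≤ N) (v : Fin r × ι → ℕ) (n : Fin r → ℕ) :
    fr N (id : Fin r → Fin r) (mul0 N hr v n) =
      ∏ q : Fin r × ι, X (Fin.castLE hr q.1, q.2) ^ v q := by
  rw [mul0, map_mul, map_prod, map_prod]
  have h1 : ∀ q : Fin r × ι, fr N (id : Fin r → Fin r) (mi (N := N) r hr (ey q.1 q.2) ^ v q) =
      X (Fin.castLE hr q.1, q.2) ^ v q := fun q => by rw [map_pow, fr_ey]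
  have h2 : ∀ m : Fin r, fr N (id : Fin r → Fin r)
      (mi (N := N) ((m : ℕ) + 1) (by omega) (ed (ι := ι) m) ^ n m) = 1 := fun m => by
    rw [map_pow, fr_ed hr, one_pow]
  rw [Finset.prod_congr rfl fun q _ => h1 q, Finset.prod_congr rfl fun m _ => h2 m,
    Finset.prod_const_one, mul_one]

end one

open scoped Classical in
/-- **(B3)** one lift. -/
theorem oneR (hB : BordR) (hM : MinR) : OneR := by
  intro k r ι η _ _ _ g c v p al tau hr hc h1 h2 h3
  obtain ⟨Ψ0, hΨ1, hΨ2, hΨ3⟩ := hB r k ι c tau hc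
  have hrN : r ≤ k + 1 + r := by omega
  set n : Fin r → ℕ := nn0 al (tau 0) (∑ q, v q) r with hn
  set Y : MvPolynomial (Fin (k + 1 + r) × (ι ⊕ Fin r)) ℂ := mul0 (k + 1 + r) hrN v n with hY
  have hYH := mul0_HC hM (k + 1 + r) hrN v n
  rw [← hY] at hYH
  let g' : ι ⊕ η → ι ⊕ Fin r := Sum.map id g
  let u : ι ⊕ η → ℕ := Sum.elim (fun j => c j + ∑ l, v (l, j)) p
  let d : ι ⊕ Fin r → ℕ := Sum.elim (fun j => c j + ∑ l, v (l, j))
    (fun l => al l - ∑ j, v (l, j))
  have hG : ∀ F, HC (Ψ0 F * Y) (ap r al tau) d := by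
    intro F
    refine (HC.mul (⟨hΨ1 F, hΨ2 F⟩ : HC (Ψ0 F) _ _) hYH).congr (fun i => ?_) (fun x => ?_)
    · unfold ap
      by_cases hi : (i : ℕ) < r
      · rw [dif_pos hi, dif_pos hi, if_pos hi]
        have := sum_nn0 h1 h2 i hi
        rw [← hn] at this
        beta_reduce
        omega
      · rw [dif_neg hi, dif_neg hi, if_neg hi, zero_add]
        rw [Finset.sum_eq_zero, add_zero]
        intro m _
        rw [if_neg (by omega)]
    · rcases x with j | l
      · rfl
      · simp only [d, Sum.elim_inr]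
        have h4 := sum_nn0 h1 h2 l l.2
        rw [← hn] at h4
        have h5 : (∑ q : Fin r × ι, if q.1 = l then 0 else v q) + ∑ j, v (l, j) = ∑ q, v q := by
          have h6 : ∑ j, v (l, j) = ∑ q : Fin r × ι, if q.1 = l then v q else 0 := by
            rw [Fintype.sum_prod_type, Finset.sum_eq_single l]
            · simp
            · intro l' _ hl'
              simp [hl']
            · intro h
              exact absurd (Finset.mem_univ _) h
          rw [h6, ← Finset.sum_add_distrib]
          refine Finset.sum_congr rfl fun q _ => ?_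
          split_ifs <;> simp
        omega
  have hg : ∀ s : ι ⊕ Fin r, ∑ t ∈ Finset.univ.filter (fun t => g' t = s), u t = d s := by
    intro s
    rw [Finset.sum_filter, Fintype.sum_sum_type]
    rcases s with j | l
    · rw [Finset.sum_eq_single j, Finset.sum_eq_zero, add_zero]
      · simp [g', u, d]
      · intro h _
        simp [g']
      · intro j' _ hj
        simp [g', hj]
      · intro h
        exact absurd (Finset.mem_univ _) h
    · rw [Finset.sum_eq_zero (s := (Finset.univ : Finset ι)), zero_add]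
      · have h4 := h3 l
        rw [Finset.sum_filter] at h4
        simp only [g', u, d, Sum.map_inr, Sum.elim_inr, Sum.inr.injEq]
        have h5 : ∀ h : η, (if g h = l then p h else 0) = if g h = l then p h else 0 := fun _ => rfl
        exact Nat.eq_sub_of_add_eq h4
      · intro j _
        simp [g']
  refine ⟨coeff (Finsupp.equivFunOnFinite.symm u) (Pg g' d),
    (SZ.R1b.cmp u).comp ((lsub (k + 1 + r) (AG g')).toLinearMap.comp
      ((LinearMap.mulRight ℂ Y).comp Ψ0)), coeff_Pg hg, ?_, ?_, ?_⟩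
  · intro F
    have h0 := lsub_mem_HW (AG g') (hG F).1
    rw [mem_HW] at h0
    refine ⟨fun w hw i => ?_, fun s i hsi => ?_⟩
    · change coeff w (SZ.R1b.cmp u (lsub (k + 1 + r) (AG g') (Ψ0 F * Y))) ≠ 0 at hw
      rw [coeff_cmp] at hw
      by_cases h : cdeg w = u
      · rw [if_pos h] at hw
        exact h0.1 w hw i
      · rw [if_neg h] at hw
        exact absurd rfl hw
    · change rowOp s i (SZ.R1b.cmp u (lsub (k + 1 + r) (AG g') (Ψ0 F * Y))) = 0
      rw [cmp_rowOp, h0.2 s i hsi, map_zero]
  · intro F w hw x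
    change coeff w (SZ.R1b.cmp u (lsub (k + 1 + r) (AG g') (Ψ0 F * Y))) ≠ 0 at hw
    rw [coeff_cmp] at hw
    by_cases h : cdeg w = u
    · exact congrFun h x
    · rw [if_neg h] at hw
      exact absurd rfl hw
  · intro F
    change fr (k + 1 + r) g (SZ.R1b.cmp u (lsub (k + 1 + r) (AG g') (Ψ0 F * Y))) = _
    rw [fr_collapse]
    have h4 := collapse (g := g') (hG F).2 u
    rw [h4, map_smul, map_mul, hΨ3, hY, fr_mul0, mul_comm]
    rfl

end Vale.Agent.P181.BL.H650
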